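import Mathlib
import Vale.Agent.Lib.P308.helper16.Bridge

namespace Vale.Agent.Results.P308.A_BoundedIndependence

/-- Let `G` be a finite simple graph with independence number at most `k` which has a
perfect matching.  Then the number of near-perfect matchings of `G` (matchings that leave
exactly two vertices uncovered) is at most `|V|^(4 (k+1)^2)` times the number of perfect
matchings of `G`.  Matchings are Mathlib matchings: subgraphs `M` with `M.IsMatching`,
whose vertex set `M.verts` is the set of covered vertices. -/
theorem result (V : Type) [Fintype V] (G : SimpleGraph V) (k : ℕ)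
    (hα : G.indepNum ≤ k) (hpm : ∃ M : G.Subgraph, M.IsPerfectMatching) :
    Nat.card {M : G.Subgraph // M.IsMatching ∧ (M.vertsᶜ).ncard = 2} ≤
      (Fintype.card V) ^ (4 * (k + 1) ^ 2) *
        Nat.card {M : G.Subgraph // M.IsPerfectMatching} := by
  classical
  exact Vale.Agent.Lib.P308.helper16.near_le_poly_perfect V G k hα hpm

end Vale.Agent.Results.P308.A_BoundedIndependence
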